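import Vale.Agent.Lib.P330.LayeredProof

set_option autoImplicit false

namespace Vale.Agent.Results.P330.LayeredMonotone

open Vale.Agent.Lib.P330

/-- If, outside a set `F` of output nodes, a ranking `r` certifies that no gate depends
antitonically on a node of the same or higher rank, then the explicit layered procedure
`layered` satisfies every gate whose output is outside `F`, for every `ε ≥ 1/m`. -/
theorem result {V : Type} [Fintype V] [DecidableEq V] (G : V → Option (Gate V))
    (hG : ∀ z g, G z = some g → g.ParamOK) (F : Finset V) (r : V → ℕ) (N : ℕ)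
    (hN : ∀ z, r z < N) (hr : ∀ z, z ∉ F → ∀ g, G z = some g → RankOK r z g)
    (m : ℕ) (hm : 0 < m) (ε : ℚ) (hε : 1 / (m : ℚ) ≤ ε) :
    (∀ z, 0 ≤ (layered G F r m N z : ℚ) / (m : ℚ) ∧ (layered G F r m N z : ℚ) / (m : ℚ) ≤ 1) ∧
    (∀ z, z ∉ F → ∀ g, G z = some g →
      Sat ε (fun v => (layered G F r m N v : ℚ) / (m : ℚ)) z g) :=
  layered_spec G hG F r N hN hr m hm ε hε

end Vale.Agent.Results.P330.LayeredMonotone
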