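import Vale.Agent.Lib.P330.Defs

set_option autoImplicit false

namespace Vale.Agent.Results.P330.PurifyGadget

open Vale.Agent.Lib.P330

/-- A five-gate gadget that purifies a node `u`, valid for every `0 < ε < 1/9`:
`c₁ = Constant((1+ε)/2)`, `d = Add(u,u)`, `v = Less(c₁,d)`, `c₂ = Constant((1+3ε)/2)`,
`w = Less(c₂,u)`. In every assignment that `ε`-satisfies these gates, `v` and `w` are low
when `u` is low, high when `u` is high, and at least one of `v`, `w` is low or high. -/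
theorem result {V : Type} (ε : ℚ) (h0 : 0 < ε) (h1 : ε < 1 / 9) (x : V → ℚ)
    (u c₁ d c₂ v w : V)
    (hc1 : Sat ε x c₁ (Gate.const ((1 + ε) / 2)))
    (hd : Sat ε x d (Gate.add u u))
    (hv : Sat ε x v (Gate.less c₁ d))
    (hc2 : Sat ε x c₂ (Gate.const ((1 + 3 * ε) / 2)))
    (hw : Sat ε x w (Gate.less c₂ u)) :
    (x u ≤ ε → x v ≤ ε ∧ x w ≤ ε) ∧
    (1 - ε ≤ x u → 1 - ε ≤ x v ∧ 1 - ε ≤ x w) ∧
    ((x v ≤ ε ∨ 1 - ε ≤ x v) ∨ (x w ≤ ε ∨ 1 - ε ≤ x w)) := by
  simp only [Sat] at hc1 hd hv hc2 hw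
  rw [abs_le] at hc1 hd hc2
  obtain ⟨hc1l, hc1u⟩ := hc1
  obtain ⟨hdl, hdu⟩ := hd
  obtain ⟨hc2l, hc2u⟩ := hc2
  obtain ⟨hv1, hv2⟩ := hv
  obtain ⟨hw1, hw2⟩ := hw
  refine ⟨?_, ?_, ?_⟩
  · intro hu
    have hm : min (x u + x u) 1 ≤ x u + x u := min_le_left _ _
    exact ⟨hv2 (by linarith), hw2 (by linarith)⟩
  · intro hu
    have hm : min (x u + x u) 1 = 1 := min_eq_right (by linarith)
    rw [hm] at hdl hdu
    exact ⟨hv1 (by linarith), hw1 (by linarith)⟩
  · by_cases hA : x c₁ < x d - ε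
    · exact Or.inl (Or.inr (hv1 hA))
    · by_cases hB : x d + ε < x c₁
      · exact Or.inl (Or.inl (hv2 hB))
      · right
        left
        apply hw2
        rw [not_lt] at hA hB
        rcases le_total (x u + x u) 1 with hle | hle
        · rw [min_eq_left hle] at hdl hdu
          linarith
        · rw [min_eq_right hle] at hdl hdu
          linarith

end Vale.Agent.Results.P330.PurifyGadget
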