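import Vale.Agent.Results.P330.QuarterTrivial
import Vale.Agent.Results.P330.LayeredMonotone
import Vale.Agent.Results.P330.PurifyGadget

namespace Vale.Agent.Results.P330.CircuitOmnibus

open Vale.Agent.Lib.P330

/-- **Three partial results on generalized circuits in one statement.**
(1) For `ε ≥ 1/4` the explicit assignment `solve ε G` satisfies every gate of every generalized
circuit `G`.
(2) If, outside a set `F` of output nodes, a ranking `r` certifies that no gate depends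
antitonically on a node of the same or higher rank, then the explicit layered procedure
`layered` satisfies every gate whose output is outside `F`, for every `ε ≥ 1/m`.
(3) A five-gate gadget that purifies a node `u`, valid for every `0 < ε < 1/9`. -/
theorem result :
    (∀ (V : Type) [Fintype V] (ε : ℚ), 1 / 4 ≤ ε → ∀ G : V → Option (Gate V),
      (∀ z g, G z = some g → g.ParamOK) →
      (∀ z, 0 ≤ solve ε G z ∧ solve ε G z ≤ 1) ∧
      (∀ z g, G z = some g → Sat ε (solve ε G) z g)) ∧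
    (∀ (V : Type) [Fintype V] [DecidableEq V] (G : V → Option (Gate V)),
      (∀ z g, G z = some g → g.ParamOK) → ∀ (F : Finset V) (r : V → ℕ) (N : ℕ),
      (∀ z, r z < N) → (∀ z, z ∉ F → ∀ g, G z = some g → RankOK r z g) →
      ∀ m : ℕ, 0 < m → ∀ ε : ℚ, 1 / (m : ℚ) ≤ ε →
      (∀ z, 0 ≤ (layered G F r m N z : ℚ) / (m : ℚ) ∧
        (layered G F r m N z : ℚ) / (m : ℚ) ≤ 1) ∧
      (∀ z, z ∉ F → ∀ g, G z = some g →
        Sat ε (fun v => (layered G F r m N v : ℚ) / (m : ℚ)) z g)) ∧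
    (∀ (V : Type) (ε : ℚ), 0 < ε → ε < 1 / 9 → ∀ (x : V → ℚ) (u c₁ d c₂ v w : V),
      Sat ε x c₁ (Gate.const ((1 + ε) / 2)) →
      Sat ε x d (Gate.add u u) →
      Sat ε x v (Gate.less c₁ d) →
      Sat ε x c₂ (Gate.const ((1 + 3 * ε) / 2)) →
      Sat ε x w (Gate.less c₂ u) →
      (x u ≤ ε → x v ≤ ε ∧ x w ≤ ε) ∧
      (1 - ε ≤ x u → 1 - ε ≤ x v ∧ 1 - ε ≤ x w) ∧
      ((x v ≤ ε ∨ 1 - ε ≤ x v) ∨ (x w ≤ ε ∨ 1 - ε ≤ x w))) :=
  ⟨fun _ _ ε hε G hG => QuarterTrivial.result ε hε G hG,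
    fun _ _ _ G hG F r N hN hr m hm ε hε => LayeredMonotone.result G hG F r N hN hr m hm ε hε,
    fun _ ε h0 h1 x u c₁ d c₂ v w hc1 hd hv hc2 hw =>
      PurifyGadget.result ε h0 h1 x u c₁ d c₂ v w hc1 hd hv hc2 hw⟩

end Vale.Agent.Results.P330.CircuitOmnibus
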