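import Vale.Agent.Lib.P330.TrivialRegime

set_option autoImplicit false

namespace Vale.Agent.Results.P330.QuarterTrivial

open Vale.Agent.Lib.P330

/-- For `ε ≥ 1/4` the explicit assignment `solve ε G` satisfies every gate of every generalized
circuit `G`. -/
theorem result {V : Type} [Fintype V] (ε : ℚ) (hε : 1 / 4 ≤ ε) (G : V → Option (Gate V))
    (hG : ∀ z g, G z = some g → g.ParamOK) :
    (∀ z, 0 ≤ solve ε G z ∧ solve ε G z ≤ 1) ∧
    (∀ z g, G z = some g → Sat ε (solve ε G) z g) :=
  solve_spec ε hε G hG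

end Vale.Agent.Results.P330.QuarterTrivial
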